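import Vale.Agent.P240.Top6

namespace Vale.Agent.Results.P240.AllOdd

open Vale.Agent.P240 Matrix

theorem result (F : Type) [Field F] [Fintype F] (n : ℕ) (hn : Odd n) (h3 : 3 ≤ n)
    (hq : Odd (Fintype.card F)) (hqn : 4 * n + 15 ≤ Fintype.card F) :
    (∀ (H : Type) [Group H] [Finite H] (ι : Matrix.specialOrthogonalGroup (Fin n) F →* H),
      Function.Injective ι → InvIn ι.range →
      WQD H ((commutator (Matrix.specialOrthogonalGroup (Fin n) F)).map ι) (n - 1)) ∧
    (∀ K : Subgroup (Matrix.SpecialLinearGroup (Fin n) F), HasOmega K → Ext0 K) ∧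
    Ext1 (⊤ : Subgroup (Matrix.SpecialLinearGroup (Fin n) F)) (fun k l => l * k.transpose = 1) ∧
    ∀ (E : Type) [Field E] [Finite E] [StarRing E] [Algebra F E],
      (∀ x : F, star (algebraMap F E x) = algebraMap F E x) → (∃ x : E, star x ≠ x) →
      (∀ K : Subgroup (Matrix.SpecialLinearGroup (Fin n) E),
        (∀ g, g ∈ K ↔ g.1 ∈ Matrix.unitaryGroup (Fin n) E) →
          Ext0 K ∧ Ext1 K fun k l => l * k.transpose = 1) ∧
      (∀ K : Subgroup (Matrix.SpecialLinearGroup (Fin n) E), HasOmega K →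
        Ext1 K (fun k l => l = k.map star) ∧ Ext1 K fun k l => l * star k = 1) ∧
      Ext2 E n :=
  allodd_pf F n hn h3 hq hqn

end Vale.Agent.Results.P240.AllOdd
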